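import Vale.Agent.Lib.P058.Algebraic

namespace Vale.Agent.Results.P058.AlgebraicRatio

open Vale.Agent.Lib.P058

/-- If four points `N ≠ S`, `E`, `W` of a Euclidean space satisfy `E + W - 2N = σ (S - N)`
(the midpoint of `E`, `W` is the point `N + (σ/2)(S - N)` of the line `NS`) and form a
subtransitive set, then `σ` is an algebraic number.  Hence the cyclic kite `kite s`, `0 < s < 1`
(four points of the unit circle), is not subtransitive whenever `s` is transcendental; an
explicit instance is the Liouville number `s = ∑ 3 ^ (-k!)`. -/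
theorem result :
    (∀ σ : ℝ, (∃ (d : ℕ) (N S E W : EuclideanSpace ℝ (Fin d)), N ≠ S ∧
        E + W - (2 : ℝ) • N = σ • (S - N) ∧
        IsSubtransitive ({N, S, E, W} : Finset (EuclideanSpace ℝ (Fin d)))) →
      IsAlgebraic ℚ σ) ∧
    (∀ s : ℝ, 0 < s → s < 1 → (kite s).card = 4 ∧ ∀ p ∈ kite s, ‖p‖ = 1) ∧
    (∀ s : ℝ, 0 < s → s < 1 → Transcendental ℚ s → ¬ IsSubtransitive (kite s)) ∧
    (0 < liouvilleNumber 3 ∧ liouvilleNumber 3 < 1 ∧
      ¬ IsSubtransitive (kite (liouvilleNumber 3))) :=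
  ⟨bisected_algebraic, fun s h0 h1 => ⟨(kite_facts s h0 h1).1, (kite_facts s h0 h1).2.1⟩,
    fun s h0 h1 ht hsub => ht (kite_algebraic s h0 h1 hsub),
    liouville_three_mem.1, liouville_three_mem.2, kite_liouville_not_subtransitive⟩

end Vale.Agent.Results.P058.AlgebraicRatio
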