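import Vale.Agent.Lib.P058.Main

namespace Vale.Agent.Results.P058.BisectedDiagonal

open Vale.Agent.Lib.P058

/-- If four points `N ≠ S`, `E`, `W` of a Euclidean space satisfy `E + W - 2N = σ (S - N)`
(the midpoint of `E`, `W` is the point `N + (σ/2)(S - N)` of the line `NS`) and form a
subtransitive set, then `σ` belongs to a fixed countable set of real numbers. -/
theorem result :
    Set.Countable {σ : ℝ | ∃ (d : ℕ) (N S E W : EuclideanSpace ℝ (Fin d)), N ≠ S ∧
      E + W - (2 : ℝ) • N = σ • (S - N) ∧
      IsSubtransitive ({N, S, E, W} : Finset (EuclideanSpace ℝ (Fin d)))} :=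
  bisected_countable

end Vale.Agent.Results.P058.BisectedDiagonal
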