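import Vale.Agent.Lib.P058.Ortho

namespace Vale.Agent.Results.P058.DiagonalRatios

open Vale.Agent.Lib.P058

/-- If four points `N ≠ S`, `E`, `W` of a Euclidean space are such that the segment `EW` and
the line `NS` meet in the point `E + a (W - E) = N + b (S - N)` with `0 < a < 1` (for a convex
quadrilateral `E N W S`: the diagonals `EW` and `NS` cut each other in the ratios `a : 1 - a`
and `b : 1 - b`), and the four points form a subtransitive set, then `b` is algebraic over the
field `ℚ(a)`.  In particular, a quadrilateral whose two diagonal ratios `a`, `b` are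
algebraically independent over `ℚ` is not subtransitive.

An explicit family: for `x, y > 0` the points `(0, -x)`, `(0, x y²)`, `(-y, 0)`, `(x² y, 0)` are
four distinct points of a circle (the diagonals lie on the coordinate axes and are divided by
the origin in the ratios `1 : y²` and `1 : x²`); this set is subtransitive only if `y` is
algebraic over `ℚ(x)`.  For `x = 2` and the Liouville number `y = ∑ 3 ^ (-k!)` it is not
subtransitive. -/
theorem result :
    (∀ a b : ℝ, 0 < a → a < 1 →
      (∃ (d : ℕ) (N S E W : EuclideanSpace ℝ (Fin d)), N ≠ S ∧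
        E + a • (W - E) = N + b • (S - N) ∧
        IsSubtransitive ({N, S, E, W} : Finset (EuclideanSpace ℝ (Fin d)))) →
      IsAlgebraic (IntermediateField.adjoin ℚ {a}) b) ∧
    (∀ x y : ℝ, 0 < x → 0 < y → (orthoQuad x y).card = 4 ∧
      ∃ (c : EuclideanSpace ℝ (Fin 2)) (r : ℝ), ∀ p ∈ orthoQuad x y, dist p c = r) ∧
    (∀ x y : ℝ, 0 < x → 0 < y → IsSubtransitive (orthoQuad x y) →
      IsAlgebraic (IntermediateField.adjoin ℚ {x}) y) ∧
    (0 < liouvilleNumber 3 ∧ ¬ IsSubtransitive (orthoQuad 2 (liouvilleNumber 3))) :=
  ⟨diagonal_algebraic, fun x y hx hy => ⟨orthoQuad_card x y hx hy, orthoQuad_concyclic x y⟩,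
    orthoQuad_algebraic, liouville_three_mem.1, orthoQuad_liouville_not_subtransitive⟩

end Vale.Agent.Results.P058.DiagonalRatios
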