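import Vale.Agent.Lib.P058.Main

namespace Vale.Agent.Results.P058.KiteCountable

open Vale.Agent.Lib.P058

/-- Among the cyclic kites `kite s`, `0 < s < 1` (each a set of four points of the unit circle),
only countably many are subtransitive; in particular some of them is not subtransitive. -/
theorem result :
    Set.Countable {s : ℝ | 0 < s ∧ s < 1 ∧ IsSubtransitive (kite s)} ∧
      (∀ s : ℝ, 0 < s → s < 1 → (kite s).card = 4 ∧ ∀ p ∈ kite s, ‖p‖ = 1) ∧
      ∃ s : ℝ, 0 < s ∧ s < 1 ∧ ¬ IsSubtransitive (kite s) :=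
  ⟨kite_countable, fun s h0 h1 => ⟨(kite_facts s h0 h1).1, (kite_facts s h0 h1).2.1⟩,
    exists_kite_not_subtransitive⟩

end Vale.Agent.Results.P058.KiteCountable
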